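import Vale.Agent.H90.KTV.ChainDefs

/-!
Mixing time of a lazy chain on a finite graph from a Poincare inequality (task C1 of the
switch-chain development).
-/

namespace Vale.Agent.H34

open Vale.Agent.H90 Finset

section

variable {Ω : Type*} [Fintype Ω] [DecidableEq Ω] (adj : Ω → Ω → Prop) [DecidableRel adj]

/-- One step of the lazy chain applied to a function. -/
noncomputable def stepFn (ρ : ℝ) (g : Ω → ℝ) : Ω → ℝ :=
  fun y => g y - ρ * ∑ z ∈ univ.filter (fun z => adj y z), (g y - g z)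

omit [DecidableEq Ω] in
lemma sum_nb_comm (hsymm : ∀ x y, adj x y → adj y x) (F : Ω → Ω → ℝ) :
    (∑ y, ∑ z ∈ univ.filter (fun z => adj y z), F y z)
      = ∑ y, ∑ z ∈ univ.filter (fun z => adj y z), F z y := by
  rw [Finset.sum_comm' (s' := fun z => univ.filter (fun y => adj z y)) (t' := univ)]
  intro x y
  simp only [mem_univ, mem_filter, true_and, and_true]
  exact ⟨hsymm x y, hsymm y x⟩

lemma lazyChain_apply' (hsymm : ∀ x y, adj x y → adj y x) (hirr : ∀ x, ¬ adj x x) (ρ : ℝ)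
    (z y : Ω) :
    lazyChain adj ρ z y
      = (if z = y then 1 - ρ * ((univ.filter (fun w => adj y w)).card : ℝ) else 0)
        + (if adj y z then ρ else 0) := by
  unfold lazyChain
  by_cases h : z = y
  · subst h
    simp [hirr]
  · by_cases h2 : adj z y
    · simp [h, h2, hsymm z y h2]
    · have h3 : ¬ adj y z := fun h3 => h2 (hsymm y z h3)
      simp [h, h2, h3]

lemma sum_mul_lazyChain (hsymm : ∀ x y, adj x y → adj y x) (hirr : ∀ x, ¬ adj x x) (ρ : ℝ)
    (g : Ω → ℝ) (y : Ω) :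
    (∑ z, g z * lazyChain adj ρ z y) = stepFn adj ρ g y := by
  have h1 : ∀ z, g z * lazyChain adj ρ z y
      = (if z = y then g z * (1 - ρ * ((univ.filter (fun w => adj y w)).card : ℝ)) else 0)
        + (if adj y z then ρ * g z else 0) := by
    intro z
    rw [lazyChain_apply' adj hsymm hirr]
    split_ifs <;> ring
  rw [sum_congr rfl (fun z _ => h1 z), sum_add_distrib, Finset.sum_ite_eq' , ← sum_filter]
  simp only [mem_univ, if_true, stepFn, sum_sub_distrib, sum_const, nsmul_eq_mul, ← mul_sum]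
  ring

omit [DecidableEq Ω] in
lemma sum_stepFn (hsymm : ∀ x y, adj x y → adj y x) (ρ : ℝ) (g : Ω → ℝ) :
    (∑ y, stepFn adj ρ g y) = ∑ y, g y := by
  have h := sum_nb_comm adj hsymm (fun y z => g y - g z)
  have h0 : (∑ y, ∑ z ∈ univ.filter (fun z => adj y z), (g y - g z)) = 0 := by
    have h2 : (∑ y, ∑ z ∈ univ.filter (fun z => adj y z), (g z - g y))
        = - ∑ y, ∑ z ∈ univ.filter (fun z => adj y z), (g y - g z) := by
      rw [← sum_neg_distrib]
      refine sum_congr rfl (fun y _ => ?_)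
      rw [← sum_neg_distrib]
      refine sum_congr rfl (fun z _ => ?_)
      ring
    linarith
  have h3 : ∀ y, stepFn adj ρ g y
      = g y - ρ * ∑ z ∈ univ.filter (fun z => adj y z), (g y - g z) := fun y => rfl
  rw [sum_congr rfl (fun y _ => h3 y), sum_sub_distrib, ← mul_sum, h0]
  ring

omit [DecidableEq Ω] in
lemma step_sq_le (hsymm : ∀ x y, adj x y → adj y x) (ρ : ℝ) (hρ : 0 < ρ)
    (hlazy : ∀ x, ρ * ((univ.filter (fun z => adj x z)).card : ℝ) ≤ 1 / 2)
    (hP : ∀ f : Ω → ℝ, 4 * ∑ x, (f x - (∑ y, f y) / (Fintype.card Ω : ℝ)) ^ 2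
      ≤ ∑ x, ∑ y ∈ univ.filter (fun y => adj x y), (f x - f y) ^ 2)
    (g : Ω → ℝ) (hg : (∑ y, g y) = 0) :
    (∑ y, (stepFn adj ρ g y) ^ 2) ≤ (1 - 2 * ρ) * ∑ y, g y ^ 2 := by
  set L : Ω → ℝ := fun y => ∑ z ∈ univ.filter (fun z => adj y z), (g y - g z) with hL
  set D : ℝ := ∑ y, ∑ z ∈ univ.filter (fun z => adj y z), (g y - g z) ^ 2 with hD
  have h1 : (∑ y, g y * L y) = D / 2 := by
    have e1 : (∑ y, g y * L y)
        = ∑ y, ∑ z ∈ univ.filter (fun z => adj y z), g y * (g y - g z) := by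
      refine sum_congr rfl (fun y _ => ?_)
      rw [hL, mul_sum]
    have e2 := sum_nb_comm adj hsymm (fun y z => g y * (g y - g z))
    have e3 : (∑ y, ∑ z ∈ univ.filter (fun z => adj y z), g y * (g y - g z))
        + (∑ y, ∑ z ∈ univ.filter (fun z => adj y z), g z * (g z - g y)) = D := by
      rw [hD, ← sum_add_distrib]
      refine sum_congr rfl (fun y _ => ?_)
      rw [← sum_add_distrib]
      refine sum_congr rfl (fun z _ => ?_)
      ring
    linarith
  have h2 : ∀ y, ρ * (L y) ^ 2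
      ≤ (1 / 2) * ∑ z ∈ univ.filter (fun z => adj y z), (g y - g z) ^ 2 := by
    intro y
    have c1 : (L y) ^ 2 ≤ ((univ.filter (fun z => adj y z)).card : ℝ)
        * ∑ z ∈ univ.filter (fun z => adj y z), (g y - g z) ^ 2 :=
      sq_sum_le_card_mul_sum_sq
    have c2 : 0 ≤ ∑ z ∈ univ.filter (fun z => adj y z), (g y - g z) ^ 2 :=
      sum_nonneg (fun z _ => sq_nonneg _)
    calc ρ * (L y) ^ 2 ≤ ρ * (((univ.filter (fun z => adj y z)).card : ℝ)
          * ∑ z ∈ univ.filter (fun z => adj y z), (g y - g z) ^ 2) :=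
          mul_le_mul_of_nonneg_left c1 hρ.le
      _ = (ρ * ((univ.filter (fun z => adj y z)).card : ℝ))
          * ∑ z ∈ univ.filter (fun z => adj y z), (g y - g z) ^ 2 := by ring
      _ ≤ (1 / 2) * ∑ z ∈ univ.filter (fun z => adj y z), (g y - g z) ^ 2 :=
          mul_le_mul_of_nonneg_right (hlazy y) c2
  have h3 : 4 * (∑ y, g y ^ 2) ≤ D := by
    have := hP g
    simpa [hg] using this
  have h4 : (∑ y, ρ * (L y) ^ 2) ≤ D / 2 := by
    calc (∑ y, ρ * (L y) ^ 2)
        ≤ ∑ y, (1 / 2) * ∑ z ∈ univ.filter (fun z => adj y z), (g y - g z) ^ 2 :=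
          sum_le_sum (fun y _ => h2 y)
      _ = D / 2 := by rw [← mul_sum]; ring
  have h5 : ∀ y, (stepFn adj ρ g y) ^ 2
      = g y ^ 2 - 2 * ρ * (g y * L y) + ρ * (ρ * (L y) ^ 2) := by
    intro y
    simp only [stepFn, hL]
    ring
  rw [sum_congr rfl (fun y _ => h5 y), sum_add_distrib, sum_sub_distrib, ← mul_sum, ← mul_sum,
    h1]
  have h6 : ρ * (∑ y, ρ * (L y) ^ 2) ≤ ρ * (D / 2) := mul_le_mul_of_nonneg_left h4 hρ.le
  have h7 : ρ * (4 * ∑ y, g y ^ 2) ≤ ρ * D := mul_le_mul_of_nonneg_left h3 hρ.le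
  linarith

end

theorem mixing_of_poincare {Ω : Type*} [Fintype Ω] [DecidableEq Ω] [Nonempty Ω]
    (adj : Ω → Ω → Prop) [DecidableRel adj]
    (hsymm : ∀ x y, adj x y → adj y x) (hirr : ∀ x, ¬ adj x x)
    (ρ : ℝ) (hρ : 0 < ρ) (hlazy : ∀ x, ρ * ((univ.filter (fun z => adj x z)).card : ℝ) ≤ 1 / 2)
    (hP : ∀ f : Ω → ℝ, 4 * ∑ x, (f x - (∑ y, f y) / (Fintype.card Ω : ℝ)) ^ 2
      ≤ ∑ x, ∑ y ∈ univ.filter (fun y => adj x y), (f x - f y) ^ 2)
    (t : ℕ) (ht : (Fintype.card Ω : ℝ) * (1 - 2 * ρ) ^ t ≤ 1 / 4) (x : Ω) :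
    (1 / 2 : ℝ) * ∑ y, |(lazyChain adj ρ ^ t) x y - 1 / (Fintype.card Ω : ℝ)| ≤ 1 / 4 := by
  have hNpos : (0 : ℝ) < (Fintype.card Ω : ℝ) := by
    exact_mod_cast Fintype.card_pos
  set N : ℝ := (Fintype.card Ω : ℝ) with hN
  set g : ℕ → Ω → ℝ := fun s y => (lazyChain adj ρ ^ s) x y - 1 / N with hg
  have hstep : ∀ s, g (s + 1) = stepFn adj ρ (g s) := by
    intro s
    funext y
    have e1 : (lazyChain adj ρ ^ (s + 1)) x y
        = stepFn adj ρ (fun z => (lazyChain adj ρ ^ s) x z) y := by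
      rw [pow_succ, Matrix.mul_apply, sum_mul_lazyChain adj hsymm hirr]
    simp only [hg, e1, stepFn]
    have e2 : ∀ z, ((lazyChain adj ρ ^ s) x y - 1 / N - ((lazyChain adj ρ ^ s) x z - 1 / N))
        = (lazyChain adj ρ ^ s) x y - (lazyChain adj ρ ^ s) x z := fun z => by ring
    rw [sum_congr rfl (fun z _ => e2 z)]
    ring
  have hmean : ∀ s, (∑ y, g s y) = 0 := by
    intro s
    induction s with
    | zero =>
      simp only [hg, pow_zero, Matrix.one_apply, sum_sub_distrib, sum_ite_eq, mem_univ, if_true,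
        sum_const, card_univ, nsmul_eq_mul]
      rw [← hN]
      field_simp
      ring
    | succ s ih =>
      rw [hstep s, sum_stepFn adj hsymm]
      exact ih
  have hsq0 : (∑ y, g 0 y ^ 2) ≤ 1 := by
    have e1 : ∀ y, g 0 y ^ 2 = (if x = y then 1 - 2 / N else 0) + 1 / N ^ 2 := by
      intro y
      simp only [hg, pow_zero, Matrix.one_apply]
      split_ifs
      · field_simp
        ring
      · field_simp
        ring
    rw [sum_congr rfl (fun y _ => e1 y), sum_add_distrib, sum_ite_eq]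
    simp only [mem_univ, if_true, sum_const, card_univ, nsmul_eq_mul]
    rw [← hN]
    have e2 : N * (1 / N ^ 2) = 1 / N := by
      field_simp
    rw [e2]
    have e3 : 0 < 1 / N := by positivity
    have e4 : 2 / N = 2 * (1 / N) := by ring
    rw [e4]
    linarith
  have hkey : ∀ s, (∑ y, g (s + 1) y ^ 2) ≤ (1 - 2 * ρ) * ∑ y, g s y ^ 2 := by
    intro s
    rw [hstep s]
    exact step_sq_le adj hsymm ρ hρ hlazy hP (g s) (hmean s)
  have hnn : ∀ s, 0 ≤ ∑ y, g s y ^ 2 := fun s => sum_nonneg (fun y _ => sq_nonneg _)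
  have hfin : N * (∑ y, g t y ^ 2) ≤ 1 / 4 := by
    by_cases hc : 0 ≤ 1 - 2 * ρ
    · have hind : ∀ s, (∑ y, g s y ^ 2) ≤ (1 - 2 * ρ) ^ s := by
        intro s
        induction s with
        | zero => simpa using hsq0
        | succ s ih =>
          calc (∑ y, g (s + 1) y ^ 2) ≤ (1 - 2 * ρ) * ∑ y, g s y ^ 2 := hkey s
            _ ≤ (1 - 2 * ρ) * (1 - 2 * ρ) ^ s := mul_le_mul_of_nonneg_left ih hc
            _ = (1 - 2 * ρ) ^ (s + 1) := by ring
      calc N * (∑ y, g t y ^ 2) ≤ N * (1 - 2 * ρ) ^ t :=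
            mul_le_mul_of_nonneg_left (hind t) hNpos.le
        _ ≤ 1 / 4 := ht
    · have hc' : 1 - 2 * ρ < 0 := not_le.mp hc
      have h0 : (∑ y, g t y ^ 2) ≤ 0 := by
        have h1 := hkey t
        have h2 := hnn (t + 1)
        have h3 := hnn t
        nlinarith
      have h1 : (∑ y, g t y ^ 2) = 0 := le_antisymm h0 (hnn t)
      rw [h1]
      norm_num
  have hcs : (∑ y, |g t y|) ^ 2 ≤ N * ∑ y, g t y ^ 2 := by
    have c1 : (∑ y, |g t y|) ^ 2 ≤ ((univ : Finset Ω).card : ℝ) * ∑ y, |g t y| ^ 2 :=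
      sq_sum_le_card_mul_sum_sq
    simpa [card_univ, sq_abs] using c1
  have hs0 : 0 ≤ ∑ y, |g t y| := sum_nonneg (fun y _ => abs_nonneg _)
  have hgoal : (∑ y, |g t y|) ≤ 1 / 2 := by
    nlinarith
  have : (∑ y, |(lazyChain adj ρ ^ t) x y - 1 / N|) = ∑ y, |g t y| := rfl
  rw [this]
  linarith

end Vale.Agent.H34
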